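import Mathlib
import Crest.Agent.X212.Cyc79.Fld
import Crest.Agent.X212.Mon62.Res

-- ▼ part X212/Ten12/Abs
section

/-!
# Row 212, CYC-TEN (helper12): Hilbert tensor products, abstractly

`Ten K X Y` : `Y` is the Hilbert tensor product of `X` and `K`, given by contractions `c h` and
their adjoints `e h`.
-/

set_option autoImplicit false
noncomputable section
open scoped Topology InnerProductSpace
open Set Function Filter ContinuousLinearMap

namespace Crest.Agent.X212.Ten12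

variable (K X Y : Type*) [NormedAddCommGroup K] [InnerProductSpace ℝ K]
  [NormedAddCommGroup X] [InnerProductSpace ℝ X] [NormedAddCommGroup Y] [InnerProductSpace ℝ Y] in
/-- `Y = X ⊗ K` -/
structure Ten where
  c : K →L[ℝ] Y →L[ℝ] X
  e : K →L[ℝ] X →L[ℝ] Y
  adj : ∀ h u x, ⟪c h u, x⟫_ℝ = ⟪u, e h x⟫_ℝ
  ce : ∀ h h' x, c h (e h' x) = ⟪h, h'⟫_ℝ • x
  sep : ∀ u, (∀ h, c h u = 0) → u = 0

namespace Ten

variable {K K' X X' X'' Y Y' Y'' : Type*} [NormedAddCommGroup K] [InnerProductSpace ℝ K]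
  [NormedAddCommGroup K'] [InnerProductSpace ℝ K']
  [NormedAddCommGroup X] [InnerProductSpace ℝ X] [NormedAddCommGroup Y] [InnerProductSpace ℝ Y]
  [NormedAddCommGroup X'] [InnerProductSpace ℝ X'] [NormedAddCommGroup Y'] [InnerProductSpace ℝ Y']
  [NormedAddCommGroup X''] [InnerProductSpace ℝ X''] [NormedAddCommGroup Y'']
  [InnerProductSpace ℝ Y''] (T : Ten K X Y)

theorem ext' {u v : Y} (h : ∀ k, T.c k u = T.c k v) : u = v :=
  sub_eq_zero.1 (T.sep _ fun k => by rw [map_sub, h, sub_self])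

theorem inner_e (h h' : K) (x x' : X) : ⟪T.e h x, T.e h' x'⟫_ℝ = ⟪h, h'⟫_ℝ * ⟪x, x'⟫_ℝ := by
  rw [← T.adj, T.ce, real_inner_smul_left, real_inner_comm h]

theorem norm_e (h : K) (x : X) : ‖T.e h x‖ = ‖h‖ * ‖x‖ := by
  rw [← sq_eq_sq₀ (norm_nonneg _) (by positivity), ← real_inner_self_eq_norm_sq, T.inner_e,
    real_inner_self_eq_norm_sq, real_inner_self_eq_norm_sq, mul_pow]

theorem norm_c_le (h : K) (u : Y) : ‖T.c h u‖ ≤ ‖h‖ * ‖u‖ := by
  have h1 : ‖T.c h u‖ * ‖T.c h u‖ ≤ ‖h‖ * ‖u‖ * ‖T.c h u‖ := by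
    rw [← real_inner_self_eq_norm_mul_norm, T.adj]
    refine (real_inner_le_norm _ _).trans_eq ?_
    rw [T.norm_e]; ring
  rcases (norm_nonneg (T.c h u)).eq_or_lt with a | a
  · rw [← a]; positivity
  · exact le_of_mul_le_mul_right h1 a

/-- the embedding along a unit vector -/
def iso {h : K} (hh : ‖h‖ = 1) : X →ₗᵢ[ℝ] Y :=
  ⟨(T.e h).toLinearMap, fun x => (T.norm_e h x).trans (by rw [hh, one_mul])⟩

theorem orth {s : Type*} {b : s → K} (hb : Orthonormal ℝ b) :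
    OrthogonalFamily ℝ (fun _ : s => X) fun n => T.iso (hb.1 n) := fun _ _ hne x y =>
  (T.inner_e _ _ x y).trans (by rw [hb.2 hne, zero_mul])

theorem norm_sum_e {s : Type*} {b : s → K} (hb : Orthonormal ℝ b) (x : s → X) (t : Finset s) :
    ‖∑ n ∈ t, T.e (b n) (x n)‖ ^ 2 = ∑ n ∈ t, ‖x n‖ ^ 2 := (T.orth hb).norm_sum x t

/-- Bessel's inequality -/
theorem bessel {s : Type*} {b : s → K} (hb : Orthonormal ℝ b) (u : Y) (t : Finset s) :
    ∑ n ∈ t, ‖T.c (b n) u‖ ^ 2 ≤ ‖u‖ ^ 2 := by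
  have h1 := T.norm_sum_e hb (fun n => T.c (b n) u) t
  have h2 : ⟪u, ∑ n ∈ t, T.e (b n) (T.c (b n) u)⟫_ℝ = ∑ n ∈ t, ‖T.c (b n) u‖ ^ 2 := by
    simp only [inner_sum, ← T.adj, real_inner_self_eq_norm_sq]
  have h3 := norm_sub_sq_real u (∑ n ∈ t, T.e (b n) (T.c (b n) u))
  rw [h1, h2] at h3
  nlinarith [sq_nonneg ‖u - ∑ n ∈ t, T.e (b n) (T.c (b n) u)‖]

variable [CompleteSpace Y]

/-- **Hilbert-Schmidt operators are tensors** -/
theorem exists_hs {s : Type*} (b : HilbertBasis s ℝ K) (φ : K →L[ℝ] X) {C : ℝ}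
    (hC : ∀ t : Finset s, ∑ n ∈ t, ‖φ (b n)‖ ^ 2 ≤ C) : ∃ u, (∀ h, T.c h u = φ h) ∧
      HasSum (fun n => T.e (b n) (φ (b n))) u ∧ HasSum (fun n => ‖φ (b n)‖ ^ 2) (‖u‖ ^ 2) := by
  have h1 : Summable fun n => ‖φ (b n)‖ ^ 2 := summable_of_sum_le (fun _ => by positivity) hC
  obtain ⟨u, hu⟩ := ((T.orth b.orthonormal).summable_iff_norm_sq_summable fun n => φ (b n)).2 h1
  have hu' : HasSum (fun n => T.e (b n) (φ (b n))) u := hu
  refine ⟨u, fun h => (hu'.mapL (T.c h)).unique ?_, hu', ?_⟩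
  · simpa only [T.ce, map_smul, b.repr_apply_apply, real_inner_comm h] using
      (b.hasSum_repr h).mapL φ
  · have := (Tendsto.norm hu').pow 2
    simp only [T.norm_sum_e b.orthonormal] at this
    exact this

theorem hasSum_e {s : Type*} (b : HilbertBasis s ℝ K) (u : Y) :
    HasSum (fun n => T.e (b n) (T.c (b n) u)) u := by
  obtain ⟨v, h1, h2, -⟩ := T.exists_hs b (T.c.flip u) (T.bessel b.orthonormal u)
  rwa [T.ext' (u := v) (v := u) h1] at h2

/-- **Parseval** -/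
theorem parseval {s : Type*} (b : HilbertBasis s ℝ K) (u : Y) :
    HasSum (fun n => ‖T.c (b n) u‖ ^ 2) (‖u‖ ^ 2) := by
  obtain ⟨v, h1, -, h2⟩ := T.exists_hs b (T.c.flip u) (T.bessel b.orthonormal u)
  rwa [T.ext' (u := v) (v := u) h1] at h2

theorem parseval_inner {s : Type*} (b : HilbertBasis s ℝ K) (u v : Y) :
    HasSum (fun n => ⟪T.c (b n) u, T.c (b n) v⟫_ℝ) ⟪u, v⟫_ℝ := by
  simpa only [innerSL_apply_apply, ← T.adj] using (T.hasSum_e b v).mapL (innerSL ℝ u)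

variable [CompleteSpace K]

/-- the usual form: a bound for all finite orthonormal families -/
theorem exists_of_bd (φ : K →L[ℝ] X) {C : ℝ} (h0 : 0 ≤ C)
    (hC : ∀ (s : Set K) (_ : Orthonormal ℝ ((↑) : s → K)) (t : Finset s),
      ∑ n ∈ t, ‖φ n‖ ^ 2 ≤ C ^ 2) : ∃ u, (∀ h, T.c h u = φ h) ∧ ‖u‖ ≤ C := by
  obtain ⟨s, b, hb⟩ := exists_hilbertBasis ℝ K
  have h1 : ∀ t : Finset s, ∑ n ∈ t, ‖φ (b n)‖ ^ 2 ≤ C ^ 2 := fun t => by
    simpa only [hb] using hC s (hb ▸ b.orthonormal) t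
  obtain ⟨u, h2, -, h3⟩ := T.exists_hs b φ h1
  exact ⟨u, h2, (pow_le_pow_iff_left₀ (norm_nonneg _) h0 two_ne_zero).1 (hasSum_le_of_sum_le h3 h1)⟩

theorem norm_le_of {u : Y} {C : ℝ} (h0 : 0 ≤ C)
    (hC : ∀ (s : Set K) (_ : Orthonormal ℝ ((↑) : s → K)) (t : Finset s),
      ∑ n ∈ t, ‖T.c n u‖ ^ 2 ≤ C ^ 2) : ‖u‖ ≤ C := by
  obtain ⟨v, h1, h2⟩ := T.exists_of_bd (T.c.flip u) h0 hC
  rwa [T.ext' (u := v) (v := u) h1] at h2

omit [CompleteSpace Y] in
/-- finite sums of pure tensors are dense -/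
theorem dense_e [CompleteSpace Y] {P : Y → Prop} (hP : IsClosed {u | P u}) (h0 : P 0)
    (ha : ∀ u v, P u → P v → P (u + v)) (he : ∀ h x, P (T.e h x)) (u : Y) : P u := by
  obtain ⟨s, b, -⟩ := exists_hilbertBasis ℝ K
  refine hP.mem_of_tendsto (T.hasSum_e b u) (Eventually.of_forall fun t => ?_)
  exact Finset.sum_induction _ P ha h0 fun _ _ => he _ _

section lft
omit [CompleteSpace Y]
variable (T' : Ten K X' Y') [CompleteSpace Y']

theorem exists_lft (R : X →L[ℝ] X') (u : Y) :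
    ∃ v, (∀ h, T'.c h v = R (T.c h u)) ∧ ‖v‖ ≤ ‖R‖ * ‖u‖ :=
  T'.exists_of_bd (R ∘L T.c.flip u) (by positivity) fun s hs t => by
    rw [mul_pow]
    refine le_trans (Finset.sum_le_sum fun n _ => ?_)
      ((Finset.mul_sum t _ _).ge.trans (mul_le_mul_of_nonneg_left (T.bessel hs u t) (sq_nonneg _)))
    rw [← mul_pow]
    exact pow_le_pow_left₀ (norm_nonneg _) (R.le_opNorm _) 2

/-- `R ⊗ 1` as a function -/
def lft0 (R : X →L[ℝ] X') (u : Y) : Y' := (T.exists_lft T' R u).choose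

theorem c_lft0 (R : X →L[ℝ] X') (u : Y) (h : K) : T'.c h (T.lft0 T' R u) = R (T.c h u) :=
  (T.exists_lft T' R u).choose_spec.1 h

/-- `R ⊗ 1` -/
def lft : (X →L[ℝ] X') →L[ℝ] Y →L[ℝ] Y' :=
  (LinearMap.mk₂ ℝ (T.lft0 T')
    (fun R S u => T'.ext' fun k => by simp only [map_add, c_lft0, add_apply])
    (fun a R u => T'.ext' fun k => by simp only [map_smul, c_lft0, smul_apply])
    (fun R u v => T'.ext' fun k => by simp only [map_add, c_lft0])
    (fun a R u => T'.ext' fun k => by simp only [map_smul, c_lft0])).mkContinuous₂ 1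
    fun R u => by
      rw [one_mul]
      exact (T.exists_lft T' R u).choose_spec.2

theorem c_lft (R : X →L[ℝ] X') (u : Y) (h : K) : T'.c h (T.lft T' R u) = R (T.c h u) :=
  T.c_lft0 T' R u h

theorem norm_lft_le (R : X →L[ℝ] X') (u : Y) : ‖T.lft T' R u‖ ≤ ‖R‖ * ‖u‖ :=
  (T.exists_lft T' R u).choose_spec.2

theorem opNorm_lft_le (R : X →L[ℝ] X') : ‖T.lft T' R‖ ≤ ‖R‖ :=
  opNorm_le_bound _ (norm_nonneg _) (T.norm_lft_le T' R)

theorem norm_lft : ‖T.lft T'‖ ≤ 1 :=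
  opNorm_le_bound _ zero_le_one fun R => by simpa only [one_mul] using T.opNorm_lft_le T' R

theorem lft_eq {R : X →L[ℝ] X'} {A : Y →L[ℝ] Y'} (h : ∀ k u, T'.c k (A u) = R (T.c k u)) :
    T.lft T' R = A := ContinuousLinearMap.ext fun u => T'.ext' fun k => by rw [c_lft, h]

theorem lft_e (R : X →L[ℝ] X') (h : K) (x : X) : T.lft T' R (T.e h x) = T'.e h (R x) :=
  T'.ext' fun k => by rw [c_lft, T.ce, T'.ce, map_smul]

theorem lft_id : T'.lft T' (ContinuousLinearMap.id ℝ X') = ContinuousLinearMap.id ℝ Y' :=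
  T'.lft_eq T' fun _ _ => rfl

theorem lft_lft (T'' : Ten K X'' Y'') [CompleteSpace Y''] (S : X' →L[ℝ] X'') (R : X →L[ℝ] X')
    (u : Y) : T'.lft T'' S (T.lft T' R u) = T.lft T'' (S ∘L R) u :=
  T''.ext' fun k => by simp only [c_lft]; rfl

theorem lft_comp (T'' : Ten K X'' Y'') [CompleteSpace Y''] (S : X' →L[ℝ] X'') (R : X →L[ℝ] X') :
    T.lft T'' (S ∘L R) = T'.lft T'' S ∘L T.lft T' R :=
  ContinuousLinearMap.ext fun u => (T.lft_lft T' T'' S R u).symm

theorem inner_lft [CompleteSpace Y] {R : X →L[ℝ] X'} {S : X' →L[ℝ] X}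
    (h : ∀ x y, ⟪R x, y⟫_ℝ = ⟪x, S y⟫_ℝ) (u : Y) (v : Y') :
    ⟪T.lft T' R u, v⟫_ℝ = ⟪u, T'.lft T S v⟫_ℝ := by
  obtain ⟨s, b, -⟩ := exists_hilbertBasis ℝ K
  refine (T'.parseval_inner b _ _).unique ?_
  simpa only [c_lft, h] using T.parseval_inner b u (T'.lft T S v)

end lft

section flip
variable [CompleteSpace X] (T' : Ten X K Y') [CompleteSpace Y']

theorem exists_flip (u : Y) :
    ∃ v, (∀ x h, ⟪T'.c x v, h⟫_ℝ = ⟪T.c h u, x⟫_ℝ) ∧ ‖v‖ ≤ ‖u‖ := by
  obtain ⟨s, b, -⟩ := exists_hilbertBasis ℝ K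
  have key : ∀ x h, ⟪adjoint (T.c.flip u) x, h⟫_ℝ = ⟪T.c h u, x⟫_ℝ := fun x h => by
    rw [adjoint_inner_left, real_inner_comm, flip_apply]
  obtain ⟨v, h1, h2⟩ := T'.exists_of_bd (adjoint (T.c.flip u)) (norm_nonneg u) fun a ha t => by
    have h3 : ∀ x, HasSum (fun n => ‖⟪x, T.c (b n) u⟫_ℝ‖ ^ 2) (‖adjoint (T.c.flip u) x‖ ^ 2) :=
      fun x => by
        have := b.hasSum_inner_mul_inner (adjoint (T.c.flip u) x) (adjoint (T.c.flip u) x)
        rw [real_inner_self_eq_norm_sq] at this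
        simp only [real_inner_comm (adjoint (T.c.flip u) x) (b _), key] at this
        simpa only [Real.norm_eq_abs, sq_abs, sq, abs_mul_abs_self, real_inner_comm x] using this
    exact hasSum_le (fun n => ha.sum_inner_products_le _) (hasSum_sum fun (x : a) (_ : x ∈ t) => h3 x)
      (T.parseval b u)
  exact ⟨v, fun x h => by rw [h1, key], h2⟩

omit [CompleteSpace X] [CompleteSpace K] [CompleteSpace Y'] [CompleteSpace Y] in
theorem ext_inner {u v : Y} (h : ∀ k x, ⟪T.c k u, x⟫_ℝ = ⟪T.c k v, x⟫_ℝ) : u = v :=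
  T.ext' fun k => ext_inner_right ℝ (h k)

/-- exchange of the two factors as a function -/
def flip0 (u : Y) : Y' := (T.exists_flip T' u).choose

theorem inner_flip0 (u : Y) (x : X) (h : K) :
    ⟪T'.c x (T.flip0 T' u), h⟫_ℝ = ⟪T.c h u, x⟫_ℝ := (T.exists_flip T' u).choose_spec.1 x h

/-- exchange of the two factors -/
def flip : Y →ₗᵢ[ℝ] Y' where
  toFun := T.flip0 T'
  map_add' u v := T'.ext_inner fun x h => by simp only [map_add, inner_add_left, inner_flip0]
  map_smul' a u := T'.ext_inner fun x h => by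
    simp only [map_smul, real_inner_smul_left, inner_flip0, RingHom.id_apply]
  norm_map' u := by
    refine (T.exists_flip T' u).choose_spec.2.antisymm ?_
    obtain ⟨w, h1, h2⟩ := T'.exists_flip T (T.flip0 T' u)
    rwa [T.ext_inner (u := w) (v := u) fun k x => by rw [h1, inner_flip0]] at h2

theorem inner_flip (u : Y) (x : X) (h : K) : ⟪T'.c x (T.flip T' u), h⟫_ℝ = ⟪T.c h u, x⟫_ℝ :=
  T.inner_flip0 T' u x h

theorem c_flip (u : Y) (x : X) : T'.c x (T.flip T' u) = adjoint (T.c.flip u) x :=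
  ext_inner_right ℝ fun h => by rw [inner_flip, adjoint_inner_left, real_inner_comm, flip_apply]

theorem flip_flip (u : Y) : T'.flip T (T.flip T' u) = u :=
  T.ext_inner fun k x => by rw [inner_flip, inner_flip]

theorem flip_e (h : K) (x : X) : T.flip T' (T.e h x) = T'.e x h :=
  T'.ext_inner fun y k => by
    rw [inner_flip, T.ce, T'.ce, real_inner_smul_left, real_inner_smul_left, real_inner_comm h,
      real_inner_comm x, mul_comm]

end flip

end Ten

end Crest.Agent.X212.Ten12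
end
end

-- ▼ part X212/Ten12/Sob

/-!
# Row 212, CYC-TEN (helper12): Sobolev spaces with values in the Hilbert fibre `Fm κ K`

`HT F (Fm κ K) j = HT F (Eu κ) j ⊗ K`.
-/

set_option autoImplicit false
set_option linter.unusedSectionVars false
noncomputable section
open scoped Manifold ContDiff Topology InnerProductSpace
open MeasureTheory Set Function Filter

namespace Crest.Agent.X212.Ten12
open An An.Pre Sob92 Cyc79
open Mon62 (HT ic)
open ContinuousLinearMap (adjoint)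

section fib
variable {κ : Type} [Fintype κ] [DecidableEq κ] {K K' : Type} [NormedAddCommGroup K]
  [InnerProductSpace ℝ K] [NormedAddCommGroup K'] [InnerProductSpace ℝ K']

theorem norm_ct_le (h : K) (v : Fm κ K) : ‖ct h v‖ ≤ ‖h‖ * ‖v‖ := by
  rw [← sq_le_sq₀ (norm_nonneg _) (by positivity), mul_pow, PiLp.norm_sq_eq_of_L2,
    PiLp.norm_sq_eq_of_L2, Finset.mul_sum]
  refine Finset.sum_le_sum fun i _ => ?_
  rw [← mul_pow, ct_apply]
  exact pow_le_pow_left₀ (norm_nonneg _) (norm_inner_le_norm _ _) 2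

theorem norm_fb_le (R : K →L[ℝ] K') (v : Fm κ K) : ‖fb R v‖ ≤ ‖R‖ * ‖v‖ := by
  rw [← sq_le_sq₀ (norm_nonneg _) (by positivity), mul_pow, PiLp.norm_sq_eq_of_L2,
    PiLp.norm_sq_eq_of_L2, Finset.mul_sum]
  refine Finset.sum_le_sum fun i _ => ?_
  rw [← mul_pow, fb_apply]
  exact pow_le_pow_left₀ (norm_nonneg _) (R.le_opNorm _) 2

variable (κ K) in
/-- `ct` as a continuous linear map -/
def ctL : K →L[ℝ] CL (Fm κ K) (Eu κ) := LinearMap.mkContinuous
  { toFun := ct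
    map_add' := fun h h' => by ext v i; simp [inner_add_left]
    map_smul' := fun a h => by ext v i; simp [inner_smul_left] } 1
  fun h => ContinuousLinearMap.opNorm_le_bound _ (by positivity) fun v => by
    rw [one_mul]; exact norm_ct_le h v

variable (κ K K') in
/-- `fb` as a continuous linear map -/
def fbL : (K →L[ℝ] K') →L[ℝ] CL (Fm κ K) (Fm κ K') := LinearMap.mkContinuous
  { toFun := fb
    map_add' := fun h h' => by ext v i; simp
    map_smul' := fun a h => by ext v i; simp } 1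
  fun h => ContinuousLinearMap.opNorm_le_bound _ (by positivity) fun v => by
    rw [one_mul]; exact norm_fb_le h v

@[simp] theorem ctL_apply (h : K) : ctL κ K h = ct h := rfl

@[simp] theorem fbL_apply (R : K →L[ℝ] K') : fbL κ K K' R = fb R := rfl

/-- `x ↦ x ⊗ h` -/
def em (h : K) : CL (Eu κ) (Fm κ K) :=
  (PiLp.continuousLinearEquiv 2 ℝ fun _ : κ => K).symm.toContinuousLinearMap ∘L
    ContinuousLinearMap.pi fun i => (PiLp.proj 2 (fun _ : κ => ℝ) i).smulRight h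

@[simp] theorem em_apply (h : K) (x : Eu κ) (i : κ) : em h x i = x i • h := rfl

theorem inner_ct (h : K) (v : Fm κ K) (x : Eu κ) : ⟪ct h v, x⟫_ℝ = ⟪v, em h x⟫_ℝ := by
  simp [PiLp.inner_apply, inner_smul_right, real_inner_comm h]

theorem ct_em (h h' : K) (x : Eu κ) : ct h (em h' x) = ⟪h, h'⟫_ℝ • x := by
  ext i; simp [inner_smul_right, mul_comm]

theorem norm_em (h : K) (x : Eu κ) : ‖em h x‖ = ‖h‖ * ‖x‖ := by
  rw [← sq_eq_sq₀ (norm_nonneg _) (by positivity), ← real_inner_self_eq_norm_sq, ← inner_ct, ct_em,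
    real_inner_smul_left, real_inner_self_eq_norm_sq, real_inner_self_eq_norm_sq, mul_pow]

variable (κ K) in
/-- `em` as a continuous linear map -/
def emL : K →L[ℝ] CL (Eu κ) (Fm κ K) := LinearMap.mkContinuous
  { toFun := em
    map_add' := fun h h' => by ext v i; simp
    map_smul' := fun a h => by ext v i; simp [smul_comm a] } 1
  fun h => ContinuousLinearMap.opNorm_le_bound _ (by positivity) fun v => by
    rw [one_mul]; exact (norm_em h v).le

@[simp] theorem emL_apply (h : K) : emL κ K h = em h := rfl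

variable (κ K) in
/-- the fibre is a tensor product -/
def fib : Ten K (Eu κ) (Fm κ K) :=
  ⟨ctL κ K, emL κ K, inner_ct, ct_em, fun _ h => ext_ct' fun k => (h k).trans (map_zero _).symm⟩

theorem fb_em (R : K →L[ℝ] K') (h : K) (x : Eu κ) : fb R (em h x) = em (R h) x := by
  ext i; simp

theorem ct_fb' [CompleteSpace K] [CompleteSpace K'] (h : K') (R : K →L[ℝ] K') (v : Fm κ K) :
    ct h (fb R v) = ct (adjoint R h) v := by
  ext i; simp [ContinuousLinearMap.adjoint_inner_left]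

/-- a function which is contracted to zero vanishes -/
theorem ae_zero_of_ct [CompleteSpace K] {α : Type*} [MeasurableSpace α] {μ : Measure α}
    {f : α → Fm κ K} (hf : AEStronglyMeasurable f μ) (h : ∀ k, ∀ᵐ y ∂μ, ct k (f y) = 0) :
    f =ᵐ[μ] 0 := by
  obtain ⟨t, ht, h't⟩ := hf.isSeparable_ae_range
  refine ae_eq_zero_of_forall_dual_of_isSeparable ℝ ht (fun c => ?_) h't
  obtain ⟨η, rfl⟩ := (InnerProductSpace.toDual ℝ (Fm κ K)).surjective c
  filter_upwards [ae_all_iff.2 fun i => h (η i)] with y hy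
  simp only [InnerProductSpace.toDual_apply_apply, inner_fm, hy, map_zero, Finset.sum_const_zero,
    Pi.zero_apply]

end fib

variable {E : Type} [NormedAddCommGroup E] [NormedSpace ℝ E] [FiniteDimensional ℝ E]
  [MeasurableSpace E] [BorelSpace E]
  {HM : Type} [TopologicalSpace HM] {I : ModelWithCorners ℝ E HM}
  {M : Type} [TopologicalSpace M] [ChartedSpace HM M] [IsManifold I ∞ M]
  [MeasurableSpace M] [T2Space M] [BorelSpace M] [SecondCountableTopology M] {ι : Type} [Fintype ι]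
  {E' : Type} [NormedAddCommGroup E'] [NormedSpace ℝ E'] [FiniteDimensional ℝ E']
  [MeasurableSpace E'] [BorelSpace E']
  {HM' : Type} [TopologicalSpace HM'] {I' : ModelWithCorners ℝ E' HM'}
  {M' : Type} [TopologicalSpace M'] [ChartedSpace HM' M'] [IsManifold I' ∞ M']
  [MeasurableSpace M'] [T2Space M'] [BorelSpace M'] [SecondCountableTopology M'] {ι' : Type}
  [Fintype ι']
  {U V W : Type} [NormedAddCommGroup U] [InnerProductSpace ℝ U]
  [NormedAddCommGroup V] [InnerProductSpace ℝ V] [NormedAddCommGroup W] [InnerProductSpace ℝ W]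

section cst
variable {F : Pre I M ι} {j l : ℕ}

theorem sm_clm (L : V →L[ℝ] W) {u : M → V} (hu : Sm I u) : Sm I fun x => L (u x) :=
  L.contMDiff.comp hu

theorem rep_cst (L : V →L[ℝ] W) : F.Rep (F.mulH j (triv M V) (triv M W) fun _ => L)
    (fun u x => L (u x)) ∧ ‖F.mulH j (triv M V) (triv M W) fun _ => L‖ ≤ ‖L‖ :=
  rep_liftT (fun _ hu => mem_triv (sm_clm L hu.1) (hu.2.1.comp_left (map_zero L)))
    (fun _ _ _ _ => funext fun _ => map_add L _ _) (fun _ _ _ => funext fun _ => map_smul L _ _)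
    (norm_nonneg L) fun u hu => nrm_le_of_sq (mul_nonneg (norm_nonneg _) (nrm_nonneg _ _)) (by
      rw [mul_pow, nrm_sq]
      exact n2_clm_le F.sm L j hu.1 (FL_of_hcs j hu.1 hu.2.1))

variable (F V W j) in
/-- constant coefficients -/
def cH : (V →L[ℝ] W) →L[ℝ] HT F V j →L[ℝ] HT F W j := LinearMap.mkContinuous
  { toFun := fun L => F.mulH j (triv M V) (triv M W) fun _ => L
    map_add' := fun L L' => RepT_eq (rep_cst _).1 (RepT_add (rep_cst L).1 (rep_cst L').1)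
      fun _ => rfl
    map_smul' := fun a L => RepT_eq (rep_cst _).1 (RepT_smul a (rep_cst L).1) fun _ => rfl } 1
  fun L => by rw [one_mul]; exact (rep_cst L).2

theorem cH_eq (L : V →L[ℝ] W) : cH V W F j L = F.mulH j (triv M V) (triv M W) fun _ => L := rfl

theorem rep_cH (L : V →L[ℝ] W) : F.Rep (cH V W F j L) fun u x => L (u x) := (rep_cst L).1

theorem norm_cH_le (L : V →L[ℝ] W) (u : HT F V j) : ‖cH V W F j L u‖ ≤ ‖L‖ * ‖u‖ :=
  (cH V W F j L).le_of_opNorm_le (rep_cst L).2 u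

theorem cH_cH (L' : W →L[ℝ] U) (L : V →L[ℝ] W) (u : HT F V j) :
    cH W U F j L' (cH V W F j L u) = cH V U F j (L' ∘L L) u :=
  DFunLike.congr_fun (RepT_eq (RepT_comp (rep_cH L') (rep_cH L)) (rep_cH _) fun _ => rfl) u

theorem cH_id (u : HT F V j) : cH V V F j (ContinuousLinearMap.id ℝ V) u = u :=
  mulH_id (fun _ _ _ => rfl) u

theorem ic_cH (h : l ≤ j) (L : V →L[ℝ] W) (u : HT F V j) :
    ic F W j l (cH V W F j L u) = cH V W F l L (ic F V j l u) :=
  Rep_incl (rep_cH L) (rep_cH L) h h u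

theorem DH_cH (L : V →L[ℝ] W) (a : ι) (u : HT F V (j + 1)) :
    DH F j _ a (cH V W F (j + 1) L u) = cH V W F j L (DH F j _ a u) :=
  DFunLike.congr_fun (RepT_eq (RepT_comp (rep_DH a) (rep_cH L)) (RepT_comp (rep_cH L) (rep_DH a))
    fun u => D_clm F L u.2.1 a) u

theorem ip_clm {L : V →L[ℝ] W} {L' : W →L[ℝ] V} (h : ∀ v w, ⟪L v, w⟫_ℝ = ⟪v, L' w⟫_ℝ) (j : ℕ) :
    ∀ {u : M → V} {v : M → W}, Sm I u → Sm I v →
      F.ip j (fun x => L (u x)) v = F.ip j u fun x => L' (v x) := by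
  induction j with
  | zero => intro u v _ _; simp only [ip, h]
  | succ j ih =>
    intro u v hu hv
    simp only [ip, h, D_clm F L hu, D_clm F L' hv, fun a => ih (F.sm_D hu a) (F.sm_D hv a)]

/-- constant coefficients have the same adjoint on all levels -/
theorem inner_cH {L : V →L[ℝ] W} {L' : W →L[ℝ] V} (h : ∀ v w, ⟪L v, w⟫_ℝ = ⟪v, L' w⟫_ℝ)
    (u : HT F V j) (v : HT F W j) : ⟪cH V W F j L u, v⟫_ℝ = ⟪u, cH W V F j L' v⟫_ℝ := by
  induction u, v using H_ind₂ with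
  | hP => exact isClosed_eq (by fun_prop) (by fun_prop)
  | h u v =>
    rw [RepT_toH (rep_cH L), RepT_toH (rep_cH L'), inner_toH, inner_toH]
    exact ip_clm h j u.2.1 v.2.1

end cst

variable {κ κ' : Type} [Fintype κ] [DecidableEq κ] [Fintype κ'] [DecidableEq κ']
  {K K' K'' : Type} [NormedAddCommGroup K] [InnerProductSpace ℝ K] [CompleteSpace K]
  [NormedAddCommGroup K'] [InnerProductSpace ℝ K'] [CompleteSpace K']
  [NormedAddCommGroup K''] [InnerProductSpace ℝ K''] [CompleteSpace K'']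

section ten
variable (F : Pre I M ι) (j : ℕ)

variable (κ K) in
/-- contraction -/
def ctH : K →L[ℝ] HT F (Fm κ K) j →L[ℝ] HT F (Eu κ) j := cH _ _ F j ∘L ctL κ K

variable (κ K) in
/-- its adjoint -/
def emH : K →L[ℝ] HT F (Eu κ) j →L[ℝ] HT F (Fm κ K) j := cH _ _ F j ∘L emL κ K

variable (κ K K') in
/-- `1 ⊗ R` -/
def fbH : (K →L[ℝ] K') →L[ℝ] HT F (Fm κ K) j →L[ℝ] HT F (Fm κ K') j := cH _ _ F j ∘L fbL κ K K'

variable {F j} {l : ℕ}

theorem ctH_eq (h : K) : ctH κ K F j h = F.mulH j _ _ fun _ => ct h := rfl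

theorem emH_eq (h : K) : emH κ K F j h = F.mulH j _ _ fun _ => em h := rfl

theorem fbH_eq (R : K →L[ℝ] K') : fbH κ K K' F j R = F.mulH j _ _ fun _ => fb R := rfl

theorem rep_ctH (h : K) : F.Rep (ctH κ K F j h) fun u x => ct h (u x) := rep_cH _

theorem rep_emH (h : K) : F.Rep (emH κ K F j h) fun u x => em h (u x) := rep_cH _

theorem rep_fbH (R : K →L[ℝ] K') : F.Rep (fbH κ K K' F j R) fun u x => fb R (u x) := rep_cH _

theorem ic_ctH (hl : l ≤ j) (h : K) (u : HT F (Fm κ K) j) :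
    ic F _ j l (ctH κ K F j h u) = ctH κ K F l h (ic F _ j l u) := ic_cH hl _ u

theorem DH_ctH (h : K) (a : ι) (u : HT F (Fm κ K) (j + 1)) :
    DH F j _ a (ctH κ K F (j + 1) h u) = ctH κ K F j h (DH F j _ a u) := DH_cH _ a u

theorem ic_fbH (hl : l ≤ j) (R : K →L[ℝ] K') (u : HT F (Fm κ K) j) :
    ic F _ j l (fbH κ K K' F j R u) = fbH κ K K' F l R (ic F _ j l u) := ic_cH hl _ u

theorem Is.ctH {u : HT F (Fm κ K) j} {α : M → Fm κ K} (H : Is F j _ u α) (h : K) :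
    Is F j _ (ctH κ K F j h u) fun z => ct h (α z) := H.mulH (Cb_const _) (Maps.triv _)

theorem Is.fbH {u : HT F (Fm κ K) j} {α : M → Fm κ K} (H : Is F j _ u α) (R : K →L[ℝ] K') :
    Is F j _ (fbH κ K K' F j R u) fun z => fb R (α z) := H.mulH (Cb_const _) (Maps.triv _)

/-- an element is recognised by its contractions -/
theorem is_of_ctH {u : HT F (Fm κ K) j} {α : M → Fm κ K} (hα : AEStronglyMeasurable α F.μ)
    (H : ∀ h, Is F j _ (ctH κ K F j h u) fun z => ct h (α z)) : Is F j _ u α := by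
  have := ae_zero_of_ct ((Lp.aestronglyMeasurable (F.toL2 j _ u)).sub hα) fun k => by
    filter_upwards [H k, Is.ctH (u := u) EventuallyEq.rfl k] with y a b
    rw [Pi.sub_apply, map_sub, ← a, ← b, sub_self]
  filter_upwards [this] with y hy using sub_eq_zero.1 hy

theorem sep_ctH (j : ℕ) : ∀ u : HT F (Fm κ K) j, (∀ h, ctH κ K F j h u = 0) → u = 0 := by
  have h0 : ∀ u : HT F (Fm κ K) 0, (∀ h, ctH κ K F 0 h u = 0) → u = 0 := fun u hu => by
    have : Is F 0 _ u 0 := is_of_ctH aestronglyMeasurable_zero fun h => by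
      rw [hu, show (fun z : M => ct h ((0 : M → Fm κ K) z)) = 0 from funext fun _ => map_zero _]
      exact Is.zero
    rw [← norm_eq_zero, ← norm_toL2_zero, norm_eq_zero, Lp.eq_zero_iff_ae_eq_zero]
    exact this
  induction j with
  | zero => exact h0
  | succ j ih =>
    intro u hu
    have a0 := h0 (ic F _ (j + 1) 0 u) fun h => by rw [← ic_ctH (Nat.zero_le _), hu, map_zero]
    have a1 := fun a => ih (DH F j _ a u) fun h => by rw [← DH_ctH, hu, map_zero]
    have : ‖u‖ ^ 2 = 0 := by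
      rw [norm_succ_sq]
      simp only [a1, show F.incl (j + 1) 0 _ u = 0 from a0]
      simp
    exact norm_eq_zero.1 (pow_eq_zero_iff two_ne_zero |>.1 this)

variable (κ K F j) in
/-- **the tensor product structure** -/
def ten : Ten K (HT F (Eu κ) j) (HT F (Fm κ K) j) where
  c := ctH κ K F j
  e := emH κ K F j
  adj h := inner_cH (inner_ct h)
  ce h h' x := (cH_cH (ct h) (em h') x).trans (by
    rw [show ct h ∘L em h' = ⟪h, h'⟫_ℝ • ContinuousLinearMap.id ℝ (Eu κ) from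
      ContinuousLinearMap.ext (ct_em h h'), map_smul, smul_apply, cH_id])
  sep := sep_ctH j

theorem ext_ctH {u v : HT F (Fm κ K) j} (h : ∀ k, ctH κ K F j k u = ctH κ K F j k v) : u = v :=
  (ten κ K F j).ext' h

theorem inner_ctH (h : K) (u : HT F (Fm κ K) j) (x : HT F (Eu κ) j) :
    ⟪ctH κ K F j h u, x⟫_ℝ = ⟪u, emH κ K F j h x⟫_ℝ := (ten κ K F j).adj h u x

theorem ctH_emH (h h' : K) (x : HT F (Eu κ) j) :
    ctH κ K F j h (emH κ K F j h' x) = ⟪h, h'⟫_ℝ • x := (ten κ K F j).ce h h' x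

theorem norm_ctH_le (h : K) (u : HT F (Fm κ K) j) : ‖ctH κ K F j h u‖ ≤ ‖h‖ * ‖u‖ :=
  (ten κ K F j).norm_c_le h u

theorem norm_emH (h : K) (x : HT F (Eu κ) j) : ‖emH κ K F j h x‖ = ‖h‖ * ‖x‖ :=
  (ten κ K F j).norm_e h x

/-- **Parseval** -/
theorem parseval {s : Type*} (b : HilbertBasis s ℝ K) (u : HT F (Fm κ K) j) :
    HasSum (fun n => ‖ctH κ K F j (b n) u‖ ^ 2) (‖u‖ ^ 2) := (ten κ K F j).parseval b u

theorem ctH_fbH (h : K') (R : K →L[ℝ] K') (u : HT F (Fm κ K) j) :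
    ctH κ K' F j h (fbH κ K K' F j R u) = ctH κ K F j (adjoint R h) u :=
  (cH_cH _ _ u).trans (congrArg (fun L => cH _ _ F j L u) (ContinuousLinearMap.ext (ct_fb' h R)))

theorem norm_fbH_le (R : K →L[ℝ] K') (u : HT F (Fm κ K) j) : ‖fbH κ K K' F j R u‖ ≤ ‖R‖ * ‖u‖ :=
  (norm_cH_le _ u).trans (mul_le_mul_of_nonneg_right
    (ContinuousLinearMap.opNorm_le_bound _ (norm_nonneg _) (norm_fb_le R)) (norm_nonneg _))

theorem fbH_fbH (S : K' →L[ℝ] K'') (R : K →L[ℝ] K') (u : HT F (Fm κ K) j) :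
    fbH κ K' K'' F j S (fbH κ K K' F j R u) = fbH κ K K'' F j (S ∘L R) u := cH_cH _ _ u

theorem fbH_id (u : HT F (Fm κ K) j) : fbH κ K K F j (ContinuousLinearMap.id ℝ K) u = u :=
  mulH_id (fun _ _ _ => rfl) u

theorem inner_fbH (R : K →L[ℝ] K') (u : HT F (Fm κ K) j) (v : HT F (Fm κ K') j) :
    ⟪fbH κ K K' F j R u, v⟫_ℝ = ⟪u, fbH κ K' K F j (adjoint R) v⟫_ℝ := inner_cH (inner_fb R) u v

theorem val_ctH {S : ℝ} (hS : Sup F S) (hj : 4 ≤ j) (h : K) (u : HT F (Fm κ K) j) (z : M) :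
    F.val j _ (ctH κ K F j h u) z = ct h (F.val j _ u z) :=
  val_mulH hS hj (Cb_const _) (Maps.triv _) u z

theorem val_fbH {S : ℝ} (hS : Sup F S) (hj : 4 ≤ j) (R : K →L[ℝ] K') (u : HT F (Fm κ K) j) (z : M) :
    F.val j _ (fbH κ K K' F j R u) z = fb R (F.val j _ u z) :=
  val_mulH hS hj (Cb_const _) (Maps.triv _) u z

end ten

end Crest.Agent.X212.Ten12
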